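import Vale.Agent.P216.Cross.Ind
import Vale.Agent.P216.Bor.LocTop
import Vale.Agent.P216.AS.Setup707

/-! # Crossing a critical level `a` with `a / p` not critical: the periodicity operator is
nilpotent on `F(X (a + e), X (a - e))` -/

open Set Topology

namespace Vale.Agent.P216.Cross

open AS Loc

/-! ### Uniform version of `unique_D` -/

theorem unique_unif {E : Type} [MetricSpace E] {X : Set E} {τ g : E → E} {p : ℕ}
    (A : Act X τ g p) {x : E} {r : ℝ} (P : A.Piece x r) :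
    ∃ δ > 0, ∀ z ∈ A.W x r, ∃ j₀ < p, ∀ y ∈ X, dist y z < δ → ∀ j < p,
      (g^[j] y ∈ A.D x r ↔ j = j₀) := by
  have h := fun z : A.W x r => A.unique_D P z.2
  choose j₀ hj₀ ρ hρ hu using h
  obtain ⟨δ, hδ, hL⟩ := lebesgue_number_lemma_of_metric (A.isCompact_W x r)
    (c := fun z : A.W x r => Metric.ball (z : E) (ρ z)) (fun _ => Metric.isOpen_ball)
    (fun z hz => mem_iUnion.2 ⟨⟨z, hz⟩, Metric.mem_ball_self (hρ _)⟩)
  refine ⟨δ, hδ, fun z hz => ?_⟩
  obtain ⟨w, hw⟩ := hL z hz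
  exact ⟨j₀ w, hj₀ w, fun y hy hyz j hj => hu w y hy (Metric.mem_ball.1 (hw hyz)) j hj⟩

/-- finitely many pieces: a common `δ` -/
theorem unique_unif_list {E : Type} [MetricSpace E] {X : Set E} {τ g : E → E} {p : ℕ}
    (A : Act X τ g p) {m : ℕ} {x : Fin m → E} {r : Fin m → ℝ}
    (P : ∀ l, A.Piece (x l) (r l)) :
    ∃ δ > 0, ∀ l, ∀ z ∈ A.W (x l) (r l), ∃ j₀ < p, ∀ y ∈ X, dist y z < δ → ∀ j < p,
      (g^[j] y ∈ A.D (x l) (r l) ↔ j = j₀) := by
  have h := fun l => unique_unif A (P l)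
  choose δ hδ hu using h
  rcases Nat.eq_zero_or_pos m with rfl | hm
  · exact ⟨1, one_pos, fun l => l.elim0⟩
  · obtain ⟨l₀, -, hl₀⟩ := (Finset.univ : Finset (Fin m)).exists_min_image δ
      ⟨⟨0, hm⟩, Finset.mem_univ _⟩
    refine ⟨δ l₀, hδ l₀, fun l z hz => ?_⟩
    obtain ⟨j₀, hj₀, h⟩ := hu l z hz
    exact ⟨j₀, hj₀, fun y hy hyz => h y hy (hyz.trans_le (hl₀ l (Finset.mem_univ _)))⟩

/-! ### Pull back by a map commuting with the rotation -/

section pb

variable {E : Type} [PseudoMetricSpace E] {k : Type} [Field k] {I : Type} {a : I → E → E}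
  {χ : I → k} {r f : E → E} {p : ℕ} {hr : ∀ x, r^[p] x = x} {V A B : Set E}

omit [PseudoMetricSpace E] in
theorem iter_comm (hm : MapsTo r V V) (hc : ∀ x ∈ V, f (r x) = r (f x)) (i : ℕ) :
    ∀ x ∈ V, f (r^[i] x) = r^[i] (f x) := by
  induction i with
  | zero => exact fun _ _ => rfl
  | succ i ih =>
    intro x hx
    rw [Function.iterate_succ_apply, ih _ (hm hx), hc x hx, ← Function.iterate_succ_apply]

/-- the difference of two cochains on `V` which agree on the tuples of `V` -/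
theorem sub_mem_of_eqOn {n : ℕ} {c c' : (Fin (n + 1) → E) → k} (hc : Eqv a χ V c)
    (hc' : Eqv a χ V c') (h : ∀ x, (∀ i, x i ∈ V) → c x = c' x) :
    (c - c' : (Fin (n + 1) → E) → k) ∈ Zr a χ V V n :=
  ⟨hc.sub hc', 1, one_pos, fun x hx => by rw [Pi.sub_apply, h x hx.1, sub_self]⟩

theorem isGMor_pb {P P' : (rotG k r p hr).Pair} (hPS : P.S ≤ Cc a χ V)
    (hP'T : P'.T = Zr a χ V V) (hf : IsMap a a V V f) (hrV : IsMap a a V V r)
    (hc : ∀ x ∈ V, f (r x) = r (f x))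
    (hS : ∀ {n c}, c ∈ P.S n → pbK k f n c ∈ P'.S n)
    (hT : ∀ {n c}, c ∈ P.T n → pbK k f n c ∈ P'.T n) : IsGMor P P' (pbK k f) where
  toIsMor := IsMor.of_comm hS hT (pbK_d f)
  comm_g {n c} hx := by
    rw [hP'T]
    have h := hPS n hx
    refine sub_mem_of_eqOn (hrV.pb_eqv (hf.pb_eqv h)) (hf.pb_eqv (hrV.pb_eqv h)) fun x hx => ?_
    change c (f ∘ (r ∘ x)) = c (r ∘ (f ∘ x))
    congr 1
    funext i
    exact hc _ (hx i)
  comm_nm {n c} hx := by
    rw [hP'T]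
    have h := hPS n hx
    have hst := rotG_stable_Cc (hr := hr) (χ := χ) hrV
    have h1 : Eqv a χ V ((rotG k r p hr).nm n (pbK k f n c)) := hst.nm_mem n _ (hf.pb_eqv h)
    have h2 : Eqv a χ V (pbK k f n ((rotG k r p hr).nm n c)) := hf.pb_eqv (hst.nm_mem n _ h)
    refine sub_mem_of_eqOn h1 h2 fun x hx => ?_
    rw [pbK_apply, rotG_nm_apply, rotG_nm_apply]
    refine Finset.sum_congr rfl fun i _ => ?_
    rw [pbK_apply]
    congr 1
    funext j
    exact iter_comm hrV.mapsX hc i _ (hx j)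

end pb

/-! ### Retracts -/

section retract

variable {k : Type} [Field k] {C : Amb k} {G : GCx C}

theorem mem_Zc_shift {P : G.Pair} {n : ℕ} (m : ℕ) {c : ∀ q, C.K q}
    (hc : c ∈ Zc (G.TotS P.S P.hS) (G.TotS P.T P.hT) n) :
    (c : G.Tot.K (n + 2 * m)) ∈ Zc (G.TotS P.S P.hS) (G.TotS P.T P.hT) (n + 2 * m) := by
  obtain ⟨h1, h2⟩ := mem_Zc.1 hc
  refine mem_Zc.2 ⟨GCx.Pair.TS_mono (by omega) h1, ?_⟩
  change G.D (n + 2 * m) c ∈ _
  rw [H609.Dadd]
  exact GCx.Pair.TS_mono (by omega) h2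

theorem uNil_retract {P P' : G.Pair} {φ : ∀ n, C.K n →ₗ[k] C.K n} (h : IsGMor P P' φ)
    (hS : P'.S ≤ P.S) (hT : P'.T ≤ P.T) (h' : IsGMor P P φ)
    (hinj : ∀ n, Function.Injective (h'.mapF n)) {m : ℕ}
    (hn : H609.UNil G P'.S P'.T P'.hS P'.hT m) : H609.UNil G P.S P.T P.hS P.hT m := by
  intro n c hc
  have h1 := hn n _ (h.tot.mapZ hc)
  have h2 : (IsGMor.seq φ c : G.Tot.K (n + 2 * m)) ∈
      Bc (G.TotS P.S P.hS) (G.TotS P.T P.hT) (n + 2 * m) :=
    Bc_mono (S := G.TotS P'.S P'.hS) (S' := G.TotS P.S P.hS) (T := G.TotS P'.T P'.hT)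
      (T' := G.TotS P.T P.hT) (fun _ _ hx => ⟨fun q hq => hS q (hx.1 q hq), hx.2⟩)
      (fun _ _ hx => ⟨fun q hq => hT q (hx.1 q hq), hx.2⟩) _ h1
  have h3 := mem_Zc_shift m hc
  have h4 : h'.mapF (n + 2 * m) (H.mk c h3) = 0 := by
    rw [h'.mapF_mk, H.mk_eq_zero]
    exact h2
  rw [← map_zero (h'.mapF (n + 2 * m))] at h4
  exact H.mk_eq_zero.1 (hinj _ h4)

end retract

/-! ### Geometry -/

section geo

variable {Λ : Type} [MetricSpace Λ] (S : GSys Λ)

theorem act {p : ℕ} (hp : p.Prime) (h2 : 2 < p) (T : ℝ) : Act (S.X T) S.τ (S.rot p) p where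
  cpt := S.compact T
  prime := hp
  odd := h2.ne'
  τ_cont := S.cont_τ T
  g_cont := S.cont_rot p T
  τ_maps := S.τ_mem T
  g_maps := S.rot_mem p T
  τ_τ x _ := S.τ_τ x
  g_p x _ := S.rot_pow p hp.pos x
  comm x _ := (S.τ_rot p x).symm

/-- The points all of whose translates are in `U`. -/
def core (p : ℕ) (U : Set Λ) : Set Λ := {y | ∀ j < p, (S.rot p)^[j] y ∈ U}

theorem rot_mem_core {p : ℕ} (hp : 0 < p) {U : Set Λ} {y : Λ} :
    S.rot p y ∈ core S p U ↔ y ∈ core S p U := by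
  constructor
  · intro h j hj
    rcases Nat.eq_zero_or_pos j with rfl | hj0
    · have := h (p - 1) (by omega)
      rw [← Function.iterate_succ_apply, Nat.succ_eq_add_one, Nat.sub_add_cancel hp,
        S.rot_pow p hp] at this
      exact this
    · have := h (j - 1) (by omega)
      rwa [← Function.iterate_succ_apply, Nat.succ_eq_add_one, Nat.sub_add_cancel hj0] at this
  · intro h j hj
    rw [← Function.iterate_succ_apply]
    rcases Nat.lt_or_ge (j + 1) p with h' | h'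
    · exact h _ h'
    · rw [show j.succ = p by omega, S.rot_pow p hp]
      exact h 0 hp

/-- The core is relatively open. -/
theorem exists_open_core {p : ℕ} {T : ℝ} {U K : Set Λ} (hU : IsOpen U)
    (hK : K ⊆ S.X T) (hKU : K ⊆ U) (hKr : MapsTo (S.rot p) K K) :
    ∃ U' : Set Λ, IsOpen U' ∧ K ⊆ U' ∧ ∀ y ∈ S.X T, (y ∈ U' ↔ y ∈ core S p U) := by
  have hit : ∀ j, ContinuousOn (S.rot p)^[j] (S.X T) ∧ MapsTo (S.rot p)^[j] (S.X T) (S.X T) := by
    intro j
    induction j with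
    | zero => exact ⟨continuousOn_id, fun _ h => h⟩
    | succ j ih =>
      rw [Function.iterate_succ]
      exact ⟨ih.1.comp (S.cont_rot p T) (S.rot_mem p T), ih.2.comp (S.rot_mem p T)⟩
  have h1 : ∀ j, ∃ u : Set Λ, IsOpen u ∧ (S.rot p)^[j] ⁻¹' U ∩ S.X T = u ∩ S.X T := fun j =>
    (continuousOn_iff'.1 (hit j).1) U hU
  choose u hu huU using h1
  have h3 : ∀ y ∈ S.X T, (y ∈ ⋂ j ∈ Finset.range p, u j ↔ y ∈ core S p U) := by
    intro y hy
    simp only [mem_iInter, Finset.mem_range]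
    refine forall_congr' fun j => forall_congr' fun hj => ?_
    have h4 : y ∈ (S.rot p)^[j] ⁻¹' U ∩ S.X T ↔ y ∈ u j ∩ S.X T := by rw [huU j]
    constructor
    · intro h
      exact (h4.2 ⟨h, hy⟩).1
    · intro h
      exact (h4.1 ⟨h, hy⟩).1
  refine ⟨⋂ j ∈ Finset.range p, u j, isOpen_biInter_finset fun j _ => hu j, fun y hy => ?_, h3⟩
  rw [h3 y (hK hy)]
  intro j _
  exact hKU ((hKr.iterate j) hy)

/-- **Crossing a free critical level: the periodicity operator is nilpotent.** -/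
theorem cross_nil (k : Type) [Field k] {p : ℕ} (hp : p.Prime) (h2 : 2 < p) {a : ℝ} (ha : 0 < a)
    (hap : a / (p : ℝ) ∉ Crit S.ℓ) : ∃ e0 > 0, e0 < a ∧ ∃ m : ℕ, ∀ e, 0 < e → e ≤ e0 →
      ∀ (hS : (S.sym k p hp.pos).gcx.Stable
          (Zr (fun _ : Unit => S.τ) (fun _ : Unit => (-1 : k)) (S.X (a + e)) (S.X (a - e))))
        (hT : (S.sym k p hp.pos).gcx.Stable
          (Zr (fun _ : Unit => S.τ) (fun _ : Unit => (-1 : k)) (S.X (a + e)) (S.X (a + e)))),
        H609.UNil (S.sym k p hp.pos).gcx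
          (Zr (fun _ : Unit => S.τ) (fun _ : Unit => (-1 : k)) (S.X (a + e)) (S.X (a - e)))
          (Zr (fun _ : Unit => S.τ) (fun _ : Unit => (-1 : k)) (S.X (a + e)) (S.X (a + e)))
          hS hT m := by
  classical
  set T : ℝ := a + 1 with hTdef
  have hT : 0 < T := by linarith
  have A := act S hp h2 T
  set K : Set Λ := S.K1 a ∪ S.K2 a with hKdef
  have hKc : IsCompact K := (S.K1_compact a ha).union (S.K2_compact a ha)
  have hKa : K ⊆ S.X a := union_subset (S.K1_sub a ha) (S.K2_sub a ha)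
  have hKT : K ⊆ S.X T := hKa.trans (S.mono _ _ (by linarith))
  have hKr : MapsTo (S.rot p) K K := by
    rintro x (hx | hx)
    · exact Or.inl (S.K1_rot p a hx)
    · exact Or.inr (S.K2_rot p a hx)
  -- pieces
  have hex : ∀ x ∈ K, ∃ r > 0, A.Piece x r := by
    intro x hx
    obtain ⟨r, hr, h⟩ := A.exists_sep (hKT hx) (S.K_free p hp h2 a ha hap x hx)
    exact ⟨r, hr, hr, h⟩
  choose! r hr hP using hex
  obtain ⟨t, ht, htc⟩ := hKc.elim_nhds_subcover (fun x => Metric.ball x (r x))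
    (fun x hx => Metric.ball_mem_nhds x (hr x hx))
  obtain ⟨U, hUdef⟩ : ∃ U : Set Λ, U = ⋃ x ∈ t, Metric.ball x (r x) := ⟨_, rfl⟩
  have hUo : IsOpen U := by
    rw [hUdef]
    exact isOpen_biUnion fun _ _ => Metric.isOpen_ball
  obtain ⟨U', hU'o, hKU', hU'⟩ := exists_open_core S hUo hKT (hUdef ▸ htc) hKr
  -- index the pieces by `Fin m`
  set m := t.card with hm
  let xs : Fin m → Λ := fun l => (t.equivFin.symm l : Λ)
  have hxs : ∀ l, xs l ∈ t := fun l => (t.equivFin.symm l).2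
  have hxs' : ∀ x ∈ t, ∃ l, xs l = x := fun x hx => ⟨t.equivFin ⟨x, hx⟩, by simp [xs]⟩
  obtain ⟨δ, hδ, hu⟩ := unique_unif_list A (x := xs) (r := fun l => r (xs l))
    fun l => hP _ (ht _ (hxs l))
  -- descent
  obtain ⟨D, hDc, hD0, hDm, hDτ, hDr, -, -, hDp⟩ := S.descent p hp h2 T hT
  obtain ⟨ε, hε, hDε⟩ := hDp a ha (by linarith) U' hU'o hKU'
  refine ⟨min ε (min (a / 2) 1), by positivity, ?_, m, ?_⟩
  · exact lt_of_le_of_lt ((min_le_right _ _).trans (min_le_left _ _)) (by linarith)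
  intro e he hee hSt hTt
  have heε : e ≤ ε := hee.trans (min_le_left _ _)
  have he1 : e ≤ 1 := hee.trans ((min_le_right _ _).trans (min_le_right _ _))
  have hVT : S.X (a + e) ⊆ S.X T := S.mono _ _ (by linarith)
  have hAV : S.X (a - e) ⊆ S.X (a + e) := S.mono _ _ (by linarith)
  set V := S.X (a + e) with hV
  set W := S.X (a - e) with hW
  set B : Set Λ := W ∪ (V \ core S p U) with hB
  have hBV : B ⊆ V := union_subset hAV sdiff_subset
  have hBr : MapsTo (S.rot p) B B := by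
    rintro x (hx | ⟨hx, hx'⟩)
    · exact Or.inl (S.rot_mem p _ hx)
    · exact Or.inr ⟨S.rot_mem p _ hx, fun h => hx' ((rot_mem_core S hp.pos).1 h)⟩
  let G := rotG k (S.rot p) p (S.rot_pow p hp.pos)
  have hrV : IsMap (fun _ : Unit => S.τ) (fun _ : Unit => S.τ) V V (S.rot p) :=
    IsMap.of_continuousOn (S.compact _) (S.cont_rot p _) (S.rot_mem p _)
      fun _ x _ => (S.τ_rot p x).symm
  have hstB : G.Stable (Zr (fun _ : Unit => S.τ) (fun _ : Unit => (-1 : k)) V B) :=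
    rotG_stable_Zr hrV hBV hBr
  have hstA : G.Stable (Zr (fun _ : Unit => S.τ) (fun _ : Unit => (-1 : k)) V W) := hSt
  have hstV : G.Stable (Zr (fun _ : Unit => S.τ) (fun _ : Unit => (-1 : k)) V V) := hTt
  -- nilpotence for `(V, B)`
  have hnil : H609.UNil G (Zr (fun _ : Unit => S.τ) (fun _ : Unit => (-1 : k)) V B)
      (Zr (fun _ : Unit => S.τ) (fun _ : Unit => (-1 : k)) V V) hstB hstV m := by
    refine ind_chain (W := fun l => A.W (xs l) (r (xs l))) (N := fun l => A.D (xs l) (r (xs l)))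
      hrV hBV hBr (fun l x hx => A.W_g hx.2) (fun l _ x hx => A.D_τ (hVT hx)) hδ ?_ ?_ hstB hstV
    · intro l z hz hzW
      obtain ⟨j, hj, h⟩ := hu l z hzW
      exact ⟨j, hj, fun y hy hyz i hi => h y (hVT hy) hyz i hi⟩
    · intro z hz hzB
      have hzc : z ∈ core S p U := by
        by_contra h
        exact hzB (Or.inr ⟨hz, h⟩)
      have hzU : z ∈ U := hzc 0 hp.pos
      rw [hUdef] at hzU
      obtain ⟨x, hx, hzx⟩ := mem_iUnion₂.1 hzU
      obtain ⟨l, rfl⟩ := hxs' x hx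
      exact ⟨l, hVT hz, 0, hp.pos, (min_le_left _ _).trans (Metric.mem_ball.1 hzx).le⟩
  -- the homotopy
  have hone : (1 : ℝ) ∈ Icc (0 : ℝ) 1 := ⟨zero_le_one, le_rfl⟩
  have hht : IsHtpy (fun _ : Unit => S.τ) (fun _ : Unit => S.τ) V V D := by
    refine IsHtpy.of_continuousOn (S.compact _) (hDc.mono (prod_mono le_rfl hVT))
      (fun s hs => hDm s hs _ (by linarith)) fun s hs _ x hx => hDτ s hs x (hVT hx)
  have hDW : ∀ s ∈ Icc (0 : ℝ) 1, MapsTo (D s) W W := fun s hs => hDm s hs _ (by linarith)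
  have hDB : MapsTo (D 1) B W := by
    rintro x (hx | ⟨hx, hx'⟩)
    · exact hDW 1 hone hx
    · have h5 : x ∉ U' := fun h => hx' ((hU' x (hVT hx)).1 h)
      exact S.mono _ _ (by linarith) (hDε x (S.mono _ _ (by linarith) hx) h5)
  let PW : G.Pair := ⟨_, _, hstA, hstV, Zr_anti le_rfl hAV⟩
  let PB : G.Pair := ⟨_, _, hstB, hstV, Zr_anti le_rfl hBV⟩
  have hcomm : ∀ x ∈ V, D 1 (S.rot p x) = S.rot p (D 1 x) := fun x hx => hDr 1 hone x (hVT hx)
  have h1 : IsGMor PW PB (pbK k (D 1)) :=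
    isGMor_pb (V := V) Zr_le_Cc rfl hht.one hrV hcomm
      (fun hc => ⟨hht.one.pb_eqv hc.1, hht.one.pb_van hBV hDB hc.2⟩)
      (fun hc => ⟨hht.one.pb_eqv hc.1, hht.one.pb_van le_rfl hht.one.mapsX hc.2⟩)
  have h3 : IsGMor PW PW (pbK k (D 1)) :=
    isGMor_pb (V := V) Zr_le_Cc rfl hht.one hrV hcomm
      (fun hc => ⟨hht.one.pb_eqv hc.1, hht.one.pb_van hAV (hDW 1 hone) hc.2⟩)
      (fun hc => ⟨hht.one.pb_eqv hc.1, hht.one.pb_van le_rfl hht.one.mapsX hc.2⟩)
  have hbij : ∀ n, Function.Bijective (h3.mapH n) := by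
    intro n
    have h4 : h3.mapH n = LinearMap.id := by
      have h5 := pullR_homotopy (χ := fun _ : Unit => (-1 : k)) hht hAV hDW n
      have h6 := pullR_eq_resR (χ := fun _ : Unit => (-1 : k)) (n := n) (X := V) (Y := V)
        (A := W) (B := W) le_rfl le_rfl hAV hht.zero (hDW 0 ⟨le_rfl, zero_le_one⟩)
        fun x hx => hD0 x (hVT hx)
      refine (h5.trans h6).trans ?_
      ext x
      exact Hinc_refl _ _ x
    rw [h4]
    exact Function.bijective_id
  exact uNil_retract (P := PW) (P' := PB) h1 (Zr_anti le_rfl subset_union_left) le_rfl h3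
    (fun n => (h3.mapF_bijective hbij n).1) hnil

end geo

end Vale.Agent.P216.Cross
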