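import Vale.Agent.P216.Cross.Rot
import Vale.Agent.P216.Spine.Contract

/-! # The action of `Z/p` and the reversal for a `GSys` -/

open Set Topology

namespace Vale.Agent.P216.GSys

open AS

variable {Λ : Type} [PseudoMetricSpace Λ] (S : GSys Λ) (k : Type) [Field k]

/-- The action of `Z/p` by rotations on all cochains. -/
abbrev G (p : ℕ) (hp : 0 < p) : GCx (ASK Λ k) := rotG k (S.rot p) p (S.rot_pow p hp)

/-- The reversal. -/
abbrev R (p : ℕ) (hp : 0 < p) : Rev (S.G k p hp) :=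
  revR k (S.rot p) p (S.rot_pow p hp) S.θ S.θ_θ (S.θ_rot p)

/-- The deck transformation as a family indexed by `Unit`. -/
abbrev da : Unit → Λ → Λ := fun _ => S.τ

/-- The character `-1`. -/
abbrev dχ (k : Type) [Field k] : Unit → k := fun _ => -1

/-- The cochains on `X s` of deck character `-1` vanishing near `A`. -/
abbrev Z (s : ℝ) (A : Set Λ) : Sub (ASK Λ k) := Zr S.da (dχ k) (S.X s) A

theorem isMap_rot (p : ℕ) (s : ℝ) : IsMap S.da S.da (S.X s) (S.X s) (S.rot p) :=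
  IsMap.of_continuousOn (S.compact s) (S.cont_rot p s) (S.rot_mem p s)
    fun _ x _ => (S.τ_rot p x).symm

theorem isMap_θ (s : ℝ) : IsMap S.da S.da (S.X s) (S.X s) S.θ :=
  IsMap.of_continuousOn (S.compact s) (S.cont_θ s) (S.θ_mem s) fun _ x _ => (S.τ_θ x).symm

theorem isMap_τ (s : ℝ) : IsMap S.da S.da (S.X s) (S.X s) S.τ :=
  IsMap.of_continuousOn (S.compact s) (S.cont_τ s) (S.τ_mem s) fun _ _ _ => rfl

variable {k}

theorem stable_Z {p : ℕ} (hp : 0 < p) {s : ℝ} {A : Set Λ} (hA : A ⊆ S.X s)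
    (hr : MapsTo (S.rot p) A A) : (S.G k p hp).Stable (S.Z k s A) :=
  rotG_stable_Zr (S.isMap_rot p s) hA hr

theorem stable_CS {p : ℕ} (hp : 0 < p) (s : ℝ) : (S.G k p hp).Stable (S.CS k s) :=
  rotG_stable_Cc (S.isMap_rot p s)

theorem stable_CT {p : ℕ} (hp : 0 < p) (s : ℝ) : (S.G k p hp).Stable (S.CT k s) :=
  S.stable_Z hp le_rfl (S.rot_mem p s)

theorem rstable_Z {p : ℕ} (hp : 0 < p) {s : ℝ} {A : Set Λ} (hA : A ⊆ S.X s)
    (hr : MapsTo S.θ A A) : (S.R k p hp).Stable (S.Z k s A) := fun _ _ hx =>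
  ⟨(S.isMap_θ s).pb_eqv hx.1, (S.isMap_θ s).pb_van hA hr hx.2⟩

theorem rstable_CS {p : ℕ} (hp : 0 < p) (s : ℝ) : (S.R k p hp).Stable (S.CS k s) :=
  fun _ _ hx => (S.isMap_θ s).pb_eqv hx

theorem rstable_CT {p : ℕ} (hp : 0 < p) (s : ℝ) : (S.R k p hp).Stable (S.CT k s) :=
  S.rstable_Z hp le_rfl (S.θ_mem s)

variable (k)

/-- The pair of `X s` relative to `A`. -/
def pairZ {p : ℕ} (hp : 0 < p) (s : ℝ) (A : Set Λ) (hA : A ⊆ S.X s)
    (hr : MapsTo (S.rot p) A A) : (S.G k p hp).Pair where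
  S := S.Z k s A
  T := S.CT k s
  hS := S.stable_Z hp hA hr
  hT := S.stable_CT hp s
  le := Zr_anti le_rfl hA

/-- The pair of `X s`. -/
def pair {p : ℕ} (hp : 0 < p) (s : ℝ) : (S.G k p hp).Pair where
  S := S.CS k s
  T := S.CT k s
  hS := S.stable_CS hp s
  hT := S.stable_CT hp s
  le := Zr_le_Cc

end Vale.Agent.P216.GSys
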