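import Vale.Agent.P216.Cross.Rot

/-! # Free pieces: the periodicity operator is nilpotent -/

open Set

namespace Vale.Agent.P216.AS

variable {E : Type} {k : Type} [Field k] {I : Type}

open Classical in
/-- Multiplication by the indicator function of `N` at the first entry. -/
noncomputable def cutL (k : Type) [Field k] (N : Set E) (n : ℕ) :
    Module.End k ((ASK E k).K n) where
  toFun c x := if x 0 ∈ N then c x else 0
  map_add' c c' := by
    funext x
    change (if x 0 ∈ N then c x + c' x else 0) = (if x 0 ∈ N then c x else 0) +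
      (if x 0 ∈ N then c' x else 0)
    split_ifs <;> simp
  map_smul' a c := by
    funext x
    change (if x 0 ∈ N then a * c x else 0) = a * (if x 0 ∈ N then c x else 0)
    split_ifs <;> simp

open Classical in
theorem cutL_apply (N : Set E) (n : ℕ) (c : (ASK E k).K n) (x : Fin (n + 1) → E) :
    cutL k N n c x = if x 0 ∈ N then c x else 0 := rfl

theorem cutL_of_mem {N : Set E} {n : ℕ} (c : (ASK E k).K n) {x : Fin (n + 1) → E}
    (hx : x 0 ∈ N) : cutL k N n c x = c x := by rw [cutL_apply, if_pos hx]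

theorem cutL_of_notMem {N : Set E} {n : ℕ} (c : (ASK E k).K n) {x : Fin (n + 1) → E}
    (hx : x 0 ∉ N) : cutL k N n c x = 0 := by rw [cutL_apply, if_neg hx]

theorem cutL_eqv {a : I → E → E} {χ : I → k} {X N : Set E}
    (hN : ∀ i, ∀ x ∈ X, (a i x ∈ N ↔ x ∈ N)) {n : ℕ} {c : (ASK E k).K n} (hc : Eqv a χ X c) :
    Eqv a χ X (cutL k N n c : (Fin (n + 1) → E) → k) := by
  intro i x hx
  by_cases h : x 0 ∈ N
  · rw [cutL_of_mem _ h, cutL_of_mem (x := a i ∘ x) _ ((hN i _ (hx 0)).2 h), hc i x hx]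
  · rw [cutL_of_notMem _ h, cutL_of_notMem (x := a i ∘ x) _ fun h' => h ((hN i _ (hx 0)).1 h'),
      mul_zero]

section Metric

variable [PseudoMetricSpace E]

theorem cutL_van {A N : Set E} {n : ℕ} {c : (ASK E k).K n}
    (hc : Van A (c : (Fin (n + 1) → E) → k)) :
    Van A (cutL k N n c : (Fin (n + 1) → E) → k) := by
  obtain ⟨ε, hε, h⟩ := hc
  refine ⟨ε, hε, fun x hx => ?_⟩
  by_cases h' : x 0 ∈ N
  · rw [cutL_of_mem _ h', h x hx]
  · rw [cutL_of_notMem _ h']

/-- The cut is a morphism of `Zr V B / Zr V B'` if near `B' \ B` the set `N` is open and closed. -/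
theorem cutL_isMor {a : I → E → E} {χ : I → k} {V B B' N : Set E}
    (hN : ∀ i, ∀ x ∈ V, (a i x ∈ N ↔ x ∈ N)) {δ : ℝ} (hδ : 0 < δ)
    (h : ∀ z ∈ B', z ∉ B → ∀ y ∈ B', ∀ y' ∈ B', dist y z < δ → dist y' z < δ →
      (y ∈ N ↔ y' ∈ N)) :
    IsMor (Zr a χ V B) (Zr a χ V B') (Zr a χ V B) (Zr a χ V B') (cutL k N) where
  mapS hx := ⟨cutL_eqv hN hx.1, cutL_van hx.2⟩
  mapT hx := ⟨cutL_eqv hN hx.1, cutL_van hx.2⟩
  comm {n c} hc := by
    obtain ⟨hcE, ε, hε, hcV⟩ := hc
    refine ⟨(cutL_eqv hN hcE).d.sub (cutL_eqv hN hcE.d), min ε δ, lt_min hε hδ, fun x hx => ?_⟩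
    change P265.AS.d (cutL k N n c : (Fin (n + 1) → E) → k) x -
      cutL k N (n + 1) (P265.AS.d c) x = 0
    rw [sub_eq_zero]
    by_cases hB : ∀ i, x i ∈ B
    · have h0 : ∀ m (y : Fin m → E), P265.AS.Sub y x → Sm B ε y := fun m y hy =>
        ⟨fun i => by obtain ⟨j, hj⟩ := hy i; exact hj ▸ hB j,
          fun i j => by
            obtain ⟨i', hi⟩ := hy i
            obtain ⟨j', hj⟩ := hy j
            rw [hi, hj]
            exact (hx.2 i' j').trans_le (min_le_left _ _)⟩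
      rw [P265.AS.d_eq_zero fun y hy => ?_]
      · by_cases hx0 : x 0 ∈ N
        · rw [cutL_of_mem _ hx0, P265.AS.d_eq_zero fun y hy => hcV y (h0 _ y hy)]
        · rw [cutL_of_notMem _ hx0]
      · by_cases hy0 : y 0 ∈ N
        · rw [cutL_of_mem _ hy0, hcV y (h0 _ y hy)]
        · rw [cutL_of_notMem _ hy0]
    · push Not at hB
      obtain ⟨l, hl⟩ := hB
      have hd : ∀ i, dist (x i) (x l) < δ := fun i => (hx.2 i l).trans_le (min_le_right _ _)
      have hiff : ∀ i j, (x i ∈ N ↔ x j ∈ N) := fun i j =>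
        h _ (hx.1 l) hl _ (hx.1 i) _ (hx.1 j) (hd i) (hd j)
      by_cases hx0 : x 0 ∈ N
      · rw [cutL_of_mem _ hx0]
        refine P265.AS.d_congr fun y hy => ?_
        obtain ⟨j, hj⟩ := hy 0
        exact cutL_of_mem _ (hj ▸ (hiff 0 j).1 hx0)
      · rw [cutL_of_notMem _ hx0]
        refine P265.AS.d_eq_zero fun y hy => ?_
        obtain ⟨j, hj⟩ := hy 0
        exact cutL_of_notMem _ fun h' => hx0 ((hiff 0 j).2 (hj ▸ h'))

/-- **A free piece.** Near `B' \ B` the translates of `N` are a disjoint cover. -/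
theorem ind_step {a : I → E → E} {χ : I → k} {r : E → E} {p : ℕ} {hr : ∀ x, r^[p] x = x}
    {V B B' N : Set E} (hB' : B' ⊆ V)
    (hS : (rotG k r p hr).Stable (Zr a χ V B)) (hT : (rotG k r p hr).Stable (Zr a χ V B'))
    (hN : ∀ i, ∀ x ∈ V, (a i x ∈ N ↔ x ∈ N)) {δ : ℝ} (hδ : 0 < δ)
    (h : ∀ z ∈ B', z ∉ B → ∃ j < p, ∀ y ∈ V, dist y z < δ → ∀ i < p, (r^[i] y ∈ N ↔ i = j)) :
    H609.UNil (rotG k r p hr) (Zr a χ V B) (Zr a χ V B') hS hT 1 := by
  classical
  rcases Nat.eq_zero_or_pos p with rfl | hp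
  · -- `B' ⊆ B`
    have hle : Zr a χ V B ≤ Zr a χ V B' := Zr_anti le_rfl fun z hz => by
      by_contra hz'
      obtain ⟨j, hj, -⟩ := h z hz hz'
      omega
    intro n c hc
    refine T_le_Bc _ _ _ ⟨fun q hq => ?_, fun q hq => hc.1.2 q (by omega)⟩
    rcases Nat.lt_or_ge n q with h' | h'
    · rw [hc.1.2 q h']; exact Submodule.zero_mem _
    · exact hle q (hc.1.1 q h')
  refine H609.uNil_one hS hT (p := p) (e := cutL k N) (fun n => rotG_g_pow n)
    (fun n => rotG_nm n) ?_ ?_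
  · refine cutL_isMor hN hδ fun z hz hz' y hy y' hy' hd hd' => ?_
    obtain ⟨j, hj, h1⟩ := h z hz hz'
    exact (h1 y (hB' hy) hd 0 hp).trans (h1 y' (hB' hy') hd' 0 hp).symm
  · intro n c hc
    have hm : ∀ j : ℕ, ∀ d ∈ Zr a χ V B n,
        ((rotG k r p hr).g n : Module.End k ((ASK E k).K n)) ^ j • d ∈ Zr a χ V B n := by
      intro j
      induction j with
      | zero => exact fun d hd => hd
      | succ j ih =>
        intro d hd
        rw [pow_succ', mul_smul]
        exact hS.g_mem _ _ (ih d hd)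
    have hmem : ∑ j ∈ Finset.range p,
        H609.cj p ((rotG k r p hr).g n : Module.End k ((ASK E k).K n)) (cutL k N n) j c ∈
          Zr a χ V B n := by
      refine Submodule.sum_mem _ fun j _ => ?_
      have h1 := hm (p - j) c hc
      have h2 : cutL k N n _ ∈ Zr a χ V B n := ⟨cutL_eqv hN h1.1, cutL_van h1.2⟩
      exact hm j _ h2
    refine ⟨hmem.1.sub hc.1, ?_⟩
    obtain ⟨hcE, ε, hε, hcV⟩ := hc
    refine ⟨min ε δ, lt_min hε hδ, fun x hx => ?_⟩
    have hval : ∀ j, j < p →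
        H609.cj p ((rotG k r p hr).g n : Module.End k ((ASK E k).K n)) (cutL k N n) j c x =
          if r^[j] (x 0) ∈ N then c x else 0 := by
      intro j hj
      rw [H609.cj, rotG_g, pbK_pow_eq, pbK_pow_eq]
      change cutL k N n (pbK k (r^[p - j]) n c) (r^[j] ∘ x) = _
      rw [cutL_apply]
      congr 1
      change c (r^[p - j] ∘ (r^[j] ∘ x)) = c x
      congr 1
      funext i
      change r^[p - j] (r^[j] (x i)) = x i
      rw [← Function.iterate_add_apply, Nat.sub_add_cancel hj.le, hr]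
    change (∑ j ∈ Finset.range p,
        H609.cj p ((rotG k r p hr).g n : Module.End k ((ASK E k).K n)) (cutL k N n) j c :
          (Fin (n + 1) → E) → k) x - c x = 0
    rw [Finset.sum_apply, Finset.sum_congr rfl fun j hj => hval j (Finset.mem_range.1 hj)]
    by_cases hB : ∀ i, x i ∈ B
    · rw [hcV x ⟨hB, fun i j => (hx.2 i j).trans_le (min_le_left _ _)⟩]
      simp
    · push Not at hB
      obtain ⟨l, hl⟩ := hB
      obtain ⟨j, hj, h1⟩ := h _ (hx.1 l) hl
      have h2 := h1 (x 0) (hB' (hx.1 0)) ((hx.2 0 l).trans_le (min_le_right _ _))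
      rw [Finset.sum_eq_single j, if_pos ((h2 j hj).2 rfl), sub_self]
      · intro i hi hij
        exact if_neg fun h' => hij ((h2 i (Finset.mem_range.1 hi)).1 h')
      · intro h'
        exact absurd (Finset.mem_range.2 hj) h'

/-- Finitely many free pieces `W i`. -/
theorem ind_chain {a : I → E → E} {χ : I → k} {r : E → E} {p : ℕ} {hr : ∀ x, r^[p] x = x}
    {V B : Set E} (hV : IsMap a a V V r) (hBV : B ⊆ V) (hBr : MapsTo r B B) {m : ℕ}
    {W N : Fin m → Set E} (hWr : ∀ l, MapsTo r (V ∩ W l) (W l))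
    (hN : ∀ l, ∀ i, ∀ x ∈ V, (a i x ∈ N l ↔ x ∈ N l)) {δ : ℝ} (hδ : 0 < δ)
    (h : ∀ l, ∀ z ∈ V, z ∈ W l →
      ∃ j < p, ∀ y ∈ V, dist y z < δ → ∀ i < p, (r^[i] y ∈ N l ↔ i = j))
    (hcov : ∀ z ∈ V, z ∉ B → ∃ l, z ∈ W l)
    (hS : (rotG k r p hr).Stable (Zr a χ V B)) (hT : (rotG k r p hr).Stable (Zr a χ V V)) :
    H609.UNil (rotG k r p hr) (Zr a χ V B) (Zr a χ V V) hS hT m := by
  set Bs : ℕ → Set E := fun i => B ∪ (V ∩ {z | ∃ l : Fin m, (l : ℕ) < i ∧ z ∈ W l}) with hBs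
  have h0 : Bs 0 = B := by
    rw [hBs]
    ext z
    simp
  have hm : Bs m = V := by
    refine Subset.antisymm (union_subset hBV inter_subset_left) fun z hz => ?_
    by_cases hzB : z ∈ B
    · exact Or.inl hzB
    · obtain ⟨l, hl⟩ := hcov z hz hzB
      exact Or.inr ⟨hz, l, l.2, hl⟩
  have hsub : ∀ i, Bs i ⊆ V := fun i => union_subset hBV inter_subset_left
  have hst : ∀ i, (rotG k r p hr).Stable (Zr a χ V (Bs i)) := fun i =>
    rotG_stable_Zr hV (hsub i) fun z hz => by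
      rcases hz with hz | ⟨hz, l, hl, hz'⟩
      · exact Or.inl (hBr hz)
      · exact Or.inr ⟨hV.mapsX hz, l, hl, hWr l ⟨hz, hz'⟩⟩
  have key := H609.uNil_chain (G := rotG k r p hr) (S := fun i => Zr a χ V (Bs i)) hst m
    (fun i _ => Zr_anti le_rfl (union_subset_union_right _ (inter_subset_inter_right _
      fun z ⟨l, hl, hz⟩ => ⟨l, by omega, hz⟩))) (fun i hi => ?_)
  · convert key using 2
    · rw [h0]
    · rw [hm]
  · refine ind_step (N := N ⟨i, hi⟩) (hsub _) _ _ (hN ⟨i, hi⟩) hδ fun z hz hz' => ?_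
    rcases hz with hz | ⟨hz, l, hl, hzl⟩
    · exact absurd (Or.inl hz) hz'
    · have hli : (l : ℕ) = i := by
        by_contra hne
        exact hz' (Or.inr ⟨hz, l, by omega, hzl⟩)
      have hl' : l = ⟨i, hi⟩ := Fin.ext hli
      exact h _ z hz (hl' ▸ hzl)

end Metric

end Vale.Agent.P216.AS
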