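import Vale.Agent.P216.AS.Htpy
import Vale.Agent.P216.AS.TotLevel
import Vale.Agent.P216.H609.TotInd

/-! # The action of `Z/p` and the reversal on Alexander-Spanier cochains -/

open Set

namespace Vale.Agent.P216.AS

variable {E : Type} {k : Type} [Field k] {I : Type}

theorem pbK_pbK (r s : E → E) (n : ℕ) (c : (ASK E k).K n) :
    pbK k s n (pbK k r n c) = pbK k (r ∘ s) n c := rfl

theorem pbK_pow_eq (r : E → E) (n i : ℕ) :
    (pbK k r n : Module.End k ((ASK E k).K n)) ^ i = pbK k (r^[i]) n := by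
  induction i with
  | zero => rfl
  | succ i ih =>
    rw [pow_succ', ih]
    rfl

/-- The action of `Z/p` on cochains by pullback under `r`, `r ^ p = 1`. -/
def rotG (k : Type) [Field k] (r : E → E) (p : ℕ) (hr : ∀ x, r^[p] x = x) : GCx (ASK E k) where
  g := pbK k r
  nm n := H609.nm p (pbK k r n : Module.End k ((ASK E k).K n))
  d_g n x := pbK_d r n x
  d_nm n x := by
    rw [H609.nm, H609.nm, LinearMap.sum_apply, LinearMap.sum_apply, map_sum]
    refine Finset.sum_congr rfl fun i _ => ?_
    rw [pbK_pow_eq, pbK_pow_eq]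
    exact pbK_d _ n x
  g_nm n x := by
    have hg : (pbK k r n : Module.End k ((ASK E k).K n)) ^ p = 1 := by
      rw [pbK_pow_eq, show r^[p] = id from funext hr]
      rfl
    exact LinearMap.congr_fun (H609.mul_nm hg) x
  nm_g n x := by
    have hg : (pbK k r n : Module.End k ((ASK E k).K n)) ^ p = 1 := by
      rw [pbK_pow_eq, show r^[p] = id from funext hr]
      rfl
    exact LinearMap.congr_fun (H609.nm_mul hg) x

section rotG

variable {r : E → E} {p : ℕ} {hr : ∀ x, r^[p] x = x}

theorem rotG_g (n : ℕ) : (rotG k r p hr).g n = pbK k r n := rfl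

theorem rotG_g_pow (n : ℕ) :
    ((rotG k r p hr).g n : Module.End k ((ASK E k).K n)) ^ p = 1 := by
  rw [rotG_g, pbK_pow_eq, show r^[p] = id from funext hr]
  rfl

theorem rotG_nm (n : ℕ) : (rotG k r p hr).nm n =
    H609.nm p ((rotG k r p hr).g n : Module.End k ((ASK E k).K n)) := rfl

theorem rotG_nm_apply (n : ℕ) (c : (ASK E k).K n) (x : Fin (n + 1) → E) :
    (rotG k r p hr).nm n c x = ∑ i ∈ Finset.range p, c (r^[i] ∘ x) := by
  rw [rotG_nm, H609.nm, LinearMap.sum_apply]
  rw [Finset.sum_apply]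
  refine Finset.sum_congr rfl fun i _ => ?_
  rw [rotG_g, pbK_pow_eq]
  rfl

theorem rotG_stable {S : Sub (ASK E k)} (h : ∀ n x, x ∈ S n → pbK k r n x ∈ S n) :
    (rotG k r p hr).Stable S where
  g_mem := h
  nm_mem n x hx := by
    rw [rotG_nm, H609.nm, LinearMap.sum_apply]
    refine Submodule.sum_mem _ fun i _ => ?_
    clear * - hx h
    induction i with
    | zero => exact hx
    | succ i ih =>
      rw [pow_succ']
      exact h n _ ih

/-- The reversal. -/
def revR (k : Type) [Field k] (r : E → E) (p : ℕ) (hr : ∀ x, r^[p] x = x) (θ : E → E)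
    (hθ : ∀ x, θ (θ x) = x) (hrθ : ∀ x, r (θ (r x)) = θ x) : Rev (rotG k r p hr) where
  r := pbK k θ
  d_r n x := pbK_d θ n x
  r_r n x := by
    rw [pbK_pbK, show θ ∘ θ = id from funext hθ]
    rfl
  grg n x := by
    rw [rotG_g, pbK_pbK, pbK_pbK, show r ∘ (θ ∘ r) = θ from funext hrθ]
  nm_r n x := by
    have h1 : ∀ i x, r^[i] (θ (r^[i] x)) = θ x := by
      intro i
      induction i with
      | zero => intro x; rfl
      | succ i ih =>
        intro x
        rw [Function.iterate_succ_apply' r i x, Function.iterate_succ_apply, hrθ, ih]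
    have h2 : ∀ i, i ≤ p → ∀ x, θ (r^[i] x) = r^[p - i] (θ x) := by
      intro i hi x
      have h3 := h1 i x
      have h4 : r^[p - i] (r^[i] (θ (r^[i] x))) = θ (r^[i] x) := by
        rw [← Function.iterate_add_apply, Nat.sub_add_cancel hi, hr]
      rw [← h4, h3]
    funext y
    rw [pbK_apply, rotG_nm_apply, rotG_nm_apply]
    rcases Nat.eq_zero_or_pos p with rfl | hp
    · simp
    rw [← Nat.sub_add_cancel hp, Finset.sum_range_succ', Finset.sum_range_succ']
    congr 1
    rw [← Finset.sum_range_reflect]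
    refine Finset.sum_congr rfl fun i hi => ?_
    have hi := Finset.mem_range.1 hi
    rw [pbK_apply]
    congr 1
    funext j
    change θ (r^[p - 1 - 1 - i + 1] (y j)) = r^[i + 1] (θ (y j))
    rw [h2 _ (by omega), show p - (p - 1 - 1 - i + 1) = i + 1 by omega]

end rotG

section Metric

variable [PseudoMetricSpace E] {r : E → E} {p : ℕ} {hr : ∀ x, r^[p] x = x} {a : I → E → E}
  {χ : I → k} {X A : Set E}

theorem rotG_stable_Zr (h : IsMap a a X X r) (hA : A ⊆ X) (hm : MapsTo r A A) :
    (rotG k r p hr).Stable (Zr a χ X A) :=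
  rotG_stable fun _ _ hx => ⟨h.pb_eqv hx.1, h.pb_van hA hm hx.2⟩

theorem rotG_stable_Cc (h : IsMap a a X X r) : (rotG k r p hr).Stable (Cc a χ X) :=
  rotG_stable fun _ _ hx => h.pb_eqv hx

end Metric

end Vale.Agent.P216.AS
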