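import Vale.Agent.P216.AS.Tot

/-! # Morphisms of total complexes

A morphism of subquotients which commutes with the differential, with `g` and with the norm only
modulo the smaller subcomplex induces a morphism of the total complexes. -/

namespace Vale.Agent.P216.AS

variable {k : Type} [Field k] {C C' C'' : Amb k}

namespace GCx

/-- `φ` commutes with the group action modulo `T'` on `S`. -/
structure GMor (G : GCx C) (G' : GCx C') (S T : Sub C) (S' T' : Sub C')
    (φ : ∀ n, C.K n →ₗ[k] C'.K n) : Prop extends IsMor S T S' T' φ where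
  comm_g : ∀ {n x}, x ∈ S n → φ n (G.g n x) - G'.g n (φ n x) ∈ T' n
  comm_nm : ∀ {n x}, x ∈ S n → φ n (G.nm n x) - G'.nm n (φ n x) ∈ T' n

variable {G : GCx C} {G' : GCx C'} {G'' : GCx C''}

theorem GMor.id_of_le {S T S' T' : Sub C} (h : S ≤ S') (h' : T ≤ T') :
    GMor G G S T S' T' fun _ => LinearMap.id where
  toIsMor := IsMor.id_of_le h h'
  comm_g _ := by simp
  comm_nm _ := by simp

theorem GMor.comm_θ {S T : Sub C} {S' T' : Sub C'} {φ : ∀ n, C.K n →ₗ[k] C'.K n}
    (h : GMor G G' S T S' T' φ) (i : ℕ) {n : ℕ} {x : C.K n} (hx : x ∈ S n) :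
    G'.θ i n (φ n x) - φ n (G.θ i n x) ∈ T' n := by
  rcases Nat.mod_two_eq_zero_or_one i with hi | hi
  · rw [θ_even _ hi, θ_even _ hi]
    have := Submodule.neg_mem _ (h.comm_nm hx)
    rwa [neg_sub] at this
  · rw [θ_odd _ hi, θ_odd _ hi, map_sub]
    have := h.comm_g hx
    convert this using 1
    abel

/-- The componentwise map. -/
def totL (φ : ∀ n, C.K n →ₗ[k] C'.K n) : (∀ q, C.K q) →ₗ[k] (∀ q, C'.K q) :=
  LinearMap.pi fun q => φ q ∘ₗ LinearMap.proj q

@[simp] theorem totL_apply (φ : ∀ n, C.K n →ₗ[k] C'.K n) (c : ∀ q, C.K q) (q : ℕ) :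
    totL φ c q = φ q (c q) := rfl

/-- the componentwise map as a family of maps of the ambient total complexes -/
abbrev totφ (G : GCx C) (G' : GCx C') (φ : ∀ n, C.K n →ₗ[k] C'.K n) (n : ℕ) :
    G.Tot.K n →ₗ[k] G'.Tot.K n := totL φ

theorem GMor.tot {S T : Sub C} {S' T' : Sub C'} {φ : ∀ n, C.K n →ₗ[k] C'.K n}
    (h : GMor G G' S T S' T' φ) (hS : G.Stable S) (hT : G.Stable T) (hS' : G'.Stable S')
    (hT' : G'.Stable T') :
    IsMor (G.TotS S hS) (G.TotS T hT) (G'.TotS S' hS') (G'.TotS T' hT') (totφ G G' φ) where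
  mapS {n c} hc := ⟨fun q hq => h.mapS (hc.1 q hq), fun q hq => by
    change φ q (c q) = 0
    rw [hc.2 q hq, map_zero]⟩
  mapT {n c} hc := ⟨fun q hq => h.mapT (hc.1 q hq), fun q hq => by
    change φ q (c q) = 0
    rw [hc.2 q hq, map_zero]⟩
  comm {n c} hc := by
    have hmem : ∀ q, c q ∈ S q := fun q => by
      rcases Nat.lt_or_ge n q with h' | h'
      · rw [hc.2 q h']; exact Submodule.zero_mem _
      · exact hc.1 q h'
    refine ⟨fun q hq => ?_, fun q hq => ?_⟩
    · cases q with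
      | zero => exact h.comm_θ (n + 1) (hmem 0)
      | succ q =>
        change (C'.d q (φ q (c q)) + (-1 : k) ^ (q + 1) •
            G'.θ (n + 1 + (q + 1)) (q + 1) (φ (q + 1) (c (q + 1)))) -
          φ (q + 1) (C.d q (c q) + (-1 : k) ^ (q + 1) •
            G.θ (n + 1 + (q + 1)) (q + 1) (c (q + 1))) ∈ T' (q + 1)
        have h1 := h.comm (hmem q)
        have h2 := (T' (q + 1)).smul_mem ((-1 : k) ^ (q + 1))
          (h.comm_θ (n + 1 + (q + 1)) (hmem (q + 1)))
        have h3 := (T' (q + 1)).add_mem h1 h2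
        convert h3 using 1
        rw [map_add, map_smul, smul_sub]
        abel
    · cases q with
      | zero => omega
      | succ q =>
        change (C'.d q (φ q (c q)) + (-1 : k) ^ (q + 1) •
            G'.θ (n + 1 + (q + 1)) (q + 1) (φ (q + 1) (c (q + 1)))) -
          φ (q + 1) (C.d q (c q) + (-1 : k) ^ (q + 1) •
            G.θ (n + 1 + (q + 1)) (q + 1) (c (q + 1))) = 0
        rw [hc.2 q (by omega), hc.2 (q + 1) (by omega)]
        simp

end GCx

end Vale.Agent.P216.AS
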